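import Vale.Agent.P251.H.MonLoc.Tensor
import Vale.Agent.P251.H.Cof.Glue

/-!
# P251, part H: connecting morphisms and the tensor product

`IsConn τ j q δ`: `δ` is the connecting morphism of the cofibre sequence `A ⟶ B ⟶ Q` given by
a cofibration `j` in the localization, where `τ : Susp ⋙ L ≅ L ⋙ Sh`.
We show that `Z ⊗ -` preserves this structure.
-/

open CategoryTheory Limits MonoidalCategory

universe v' u' v u

namespace Vale.Agent.P251.H

open CofCat ZeroObject TensorCofCat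

section conn

variable {C : Type u} [Category.{v} C] [HasZeroObject C] [HasZeroMorphisms C]
  [HasBinaryCoproducts C] [CofCat C] {D : Type u'} [Category.{v'} D] {L : C ⥤ D} {Sh : D ⥤ D}

/-- `δ` is the connecting morphism of the cofibre sequence `A ⟶ B ⟶ Q` of a cofibration:
`Q ⟵ B ∪ Cone A ⟶ Susp A`. -/
structure IsConn (τ : Susp ⋙ L ≅ L ⋙ Sh) {A B Q : C} (j : A ⟶ B) (q : B ⟶ Q)
    (δ : L.obj Q ⟶ Sh.obj (L.obj A)) : Prop where
  cof : Cof j
  isPushout : IsPushout j (0 : A ⟶ (0 : C)) q (0 : (0 : C) ⟶ Q)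
  exists_conn : ∃ (P : C) (a : B ⟶ P) (b : Cone.obj A ⟶ P) (r : P ⟶ Q) (d : P ⟶ Susp.obj A),
    IsPushout j (cin A) a b ∧ a ≫ r = q ∧ b ≫ r = 0 ∧ a ≫ d = 0 ∧ b ≫ d = cpr A ∧
      L.map r ≫ δ = L.map d ≫ τ.hom.app A

/-- the collapse of the cone in the mapping cone of a cofibration is a cofibre square -/
lemma isPushout_collapse {A B Q P : C} {j : A ⟶ B} {q : B ⟶ Q}
    (hq : IsPushout j (0 : A ⟶ (0 : C)) q (0 : (0 : C) ⟶ Q)) {a : B ⟶ P} {b : Cone.obj A ⟶ P}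
    (hP : IsPushout j (cin A) a b) {r : P ⟶ Q} (h1 : a ≫ r = q) (h2 : b ≫ r = 0) :
    IsPushout b (0 : Cone.obj A ⟶ (0 : C)) r (0 : (0 : C) ⟶ Q) := by
  have hq' : IsPushout (cin A ≫ (0 : Cone.obj A ⟶ (0 : C))) j (0 : (0 : C) ⟶ Q) (a ≫ r) := by
    rw [comp_zero, h1]
    exact hq.flip
  exact (IsPushout.of_left hq' (by rw [h2]; simp) hP.flip).flip

/-- the collapse of the cone is a weak equivalence -/
lemma W_collapse {A B Q P : C} {j : A ⟶ B} {q : B ⟶ Q} (hj : Cof j)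
    (hq : IsPushout j (0 : A ⟶ (0 : C)) q (0 : (0 : C) ⟶ Q)) {a : B ⟶ P} {b : Cone.obj A ⟶ P}
    (hP : IsPushout j (cin A) a b) {r : P ⟶ Q} (h1 : a ≫ r = q) (h2 : b ≫ r = 0) : W r :=
  collapse (Cof_pushout hP hj) (W_cone_zero A) (isPushout_collapse hq hP h1 h2)

/-- every cofibration has a mapping cone with its two collapse maps -/
lemma exists_mappingCone {A B Q : C} {j : A ⟶ B} {q : B ⟶ Q} (hj : Cof j)
    (hq : IsPushout j (0 : A ⟶ (0 : C)) q (0 : (0 : C) ⟶ Q)) :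
    ∃ (P : C) (a : B ⟶ P) (b : Cone.obj A ⟶ P) (r : P ⟶ Q) (d : P ⟶ Susp.obj A),
      IsPushout j (cin A) a b ∧ a ≫ r = q ∧ b ≫ r = 0 ∧ a ≫ d = 0 ∧ b ≫ d = cpr A := by
  obtain ⟨P, a, b, hP⟩ := exists_pushout j (cin A) hj
  have hjq : j ≫ q = 0 := by rw [hq.w]; simp
  exact ⟨P, a, b, hP.desc q 0 (by rw [hjq]; simp), hP.desc 0 (cpr A) (by simp), hP,
    hP.inl_desc _ _ _, hP.inr_desc _ _ _, hP.inl_desc _ _ _, hP.inr_desc _ _ _⟩

variable [L.IsLocalization (CofCat.W (C := C))]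

lemma isIso_of_W {X Y : C} {f : X ⟶ Y} (hf : W f) : IsIso (L.map f) :=
  Localization.inverts L (CofCat.W (C := C)) f hf

/-- existence of the connecting morphism -/
lemma exists_isConn (τ : Susp ⋙ L ≅ L ⋙ Sh) {A B Q : C} {j : A ⟶ B} {q : B ⟶ Q} (hj : Cof j)
    (hq : IsPushout j (0 : A ⟶ (0 : C)) q (0 : (0 : C) ⟶ Q)) : ∃ δ, IsConn τ j q δ := by
  obtain ⟨P, a, b, r, d, hP, h1, h2, h3, h4⟩ := exists_mappingCone hj hq
  have := isIso_of_W (L := L) (W_collapse hj hq hP h1 h2)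
  exact ⟨inv (L.map r) ≫ L.map d ≫ τ.hom.app A, hj, hq, P, a, b, r, d, hP, h1, h2, h3, h4,
    by simp⟩

omit [L.IsLocalization (CofCat.W (C := C))] in
/-- the defining property of the connecting morphism holds for every mapping cone -/
lemma IsConn.map_comp {τ : Susp ⋙ L ≅ L ⋙ Sh} {A B Q P : C} {j : A ⟶ B} {q : B ⟶ Q}
    {δ : L.obj Q ⟶ Sh.obj (L.obj A)} (h : IsConn τ j q δ) {a : B ⟶ P} {b : Cone.obj A ⟶ P}
    (hP : IsPushout j (cin A) a b) {r : P ⟶ Q} {d : P ⟶ Susp.obj A} (h1 : a ≫ r = q)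
    (h2 : b ≫ r = 0) (h3 : a ≫ d = 0) (h4 : b ≫ d = cpr A) :
    L.map r ≫ δ = L.map d ≫ τ.hom.app A := by
  obtain ⟨P', a', b', r', d', hP', h1', h2', h3', h4', h5'⟩ := h.exists_conn
  let e : P ≅ P' := hP.isoIsPushout _ _ hP'
  have er : e.hom ≫ r' = r := by
    apply hP.hom_ext
    · rw [hP.inl_isoIsPushout_hom_assoc _ _ hP', h1, h1']
    · rw [hP.inr_isoIsPushout_hom_assoc _ _ hP', h2, h2']
  have ed : e.hom ≫ d' = d := by
    apply hP.hom_ext
    · rw [hP.inl_isoIsPushout_hom_assoc _ _ hP', h3, h3']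
    · rw [hP.inr_isoIsPushout_hom_assoc _ _ hP', h4, h4']
  rw [← er, ← ed, L.map_comp, L.map_comp, Category.assoc, Category.assoc, h5']

/-- uniqueness of the connecting morphism -/
lemma IsConn.unique {τ : Susp ⋙ L ≅ L ⋙ Sh} {A B Q : C} {j : A ⟶ B} {q : B ⟶ Q}
    {δ δ' : L.obj Q ⟶ Sh.obj (L.obj A)} (h : IsConn τ j q δ) (h' : IsConn τ j q δ') :
    δ = δ' := by
  obtain ⟨P, a, b, r, d, hP, h1, h2, h3, h4, h5⟩ := h.exists_conn
  have := isIso_of_W (L := L) (W_collapse h.cof h.isPushout hP h1 h2)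
  rw [← cancel_epi (L.map r), h5, h'.map_comp hP h1 h2 h3 h4]

end conn

section tensor

variable {C : Type u} [Category.{v} C] [HasZeroObject C] [HasZeroMorphisms C]
  [HasBinaryCoproducts C] [CofCat C] [MonoidalCategory C] [SymmetricCategory C] [TensorCofCat C]
  {D : Type u'} [Category.{v'} D] [MonoidalCategory D] (L : C ⥤ D) [L.Monoidal]
  (m : ConeModel C)

open Functor.LaxMonoidal Functor.OplaxMonoidal

namespace ConeModel

/-- `Z ⊗ Cone A ≅ Cone (Z ⊗ A)` -/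
noncomputable def tensorCone (Z A : C) : Z ⊗ Cone.obj A ≅ Cone.obj (Z ⊗ A) :=
  whiskerLeftIso Z (m.coneIso A).symm ≪≫ (α_ Z A m.CI).symm ≪≫ m.coneIso (Z ⊗ A)

/-- `Z ⊗ Susp A ≅ Susp (Z ⊗ A)` -/
noncomputable def tensorSusp (Z A : C) : Z ⊗ Susp.obj A ≅ Susp.obj (Z ⊗ A) :=
  whiskerLeftIso Z (m.suspIso A).symm ≪≫ (α_ Z A m.S).symm ≪≫ m.suspIso (Z ⊗ A)

@[reassoc]
lemma whiskerLeft_cin (Z A : C) : Z ◁ cin A ≫ (m.tensorCone Z A).hom = cin (Z ⊗ A) := by
  rw [← m.coneIn_coneIso A, ← m.coneIn_coneIso (Z ⊗ A)]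
  simp [tensorCone, whiskerLeft_coneIn_assoc]

@[reassoc]
lemma whiskerLeft_cpr (Z A : C) :
    Z ◁ cpr A ≫ (m.tensorSusp Z A).hom = (m.tensorCone Z A).hom ≫ cpr (Z ⊗ A) := by
  have h : cpr A ≫ (m.suspIso A).inv = (m.coneIso A).inv ≫ A ◁ m.s := by
    rw [Iso.comp_inv_eq, Category.assoc, s_suspIso, Iso.inv_hom_id_assoc]
  simp only [tensorSusp, tensorCone, Iso.trans_hom, whiskerLeftIso_hom, Iso.symm_hom,
    Category.assoc]
  rw [← MonoidalCategory.whiskerLeft_comp_assoc, h, MonoidalCategory.whiskerLeft_comp_assoc,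
    ← s_suspIso, associator_inv_naturality_right_assoc]

/-- the comparison of the suspension with the tensor product by `K ≅ L S` -/
noncomputable def shiftIso {K : D} (κ : L.obj m.S ≅ K) : Susp ⋙ L ≅ L ⋙ tensorRight K :=
  NatIso.ofComponents
    (fun A => L.mapIso (m.suspIso A).symm ≪≫ (Functor.Monoidal.μIso L A m.S).symm ≪≫
      whiskerLeftIso (L.obj A) κ)
    (by
      intro A B f
      have h : Susp.map f ≫ (m.suspIso B).inv = (m.suspIso A).inv ≫ f ▷ m.S := by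
        rw [Iso.comp_inv_eq, Category.assoc, suspIso_natural, Iso.inv_hom_id_assoc]
      simp only [Functor.comp_obj, Functor.comp_map, Iso.trans_hom, Functor.mapIso_hom,
        Iso.symm_hom, Functor.Monoidal.μIso_inv, whiskerLeftIso_hom, Category.assoc]
      change L.map (Susp.map f) ≫ _ = _ ≫ _ ≫ _ ≫ (L.map f ▷ K)
      rw [← Functor.map_comp_assoc, h, Functor.map_comp_assoc, whisker_exchange,
        δ_natural_left_assoc])

lemma shiftIso_hom_app {K : D} (κ : L.obj m.S ≅ K) (A : C) :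
    (m.shiftIso L κ).hom.app A =
      L.map (m.suspIso A).inv ≫ δ L A m.S ≫ L.obj A ◁ κ.hom := rfl

variable {L m} in
/-- `Z ⊗ -` preserves connecting morphisms. -/
theorem isConn_tensor {K : D} {κ : L.obj m.S ≅ K} (Z : C) {A B Q : C} {j : A ⟶ B} {q : B ⟶ Q}
    {d : L.obj Q ⟶ L.obj A ⊗ K} (h : IsConn (m.shiftIso L κ) j q d) :
    IsConn (m.shiftIso L κ) (Z ◁ j) (Z ◁ q)
      (δ L Z Q ≫ L.obj Z ◁ d ≫ (α_ (L.obj Z) (L.obj A) K).inv ≫ μ L Z A ▷ K) := by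
  obtain ⟨P, a, b, r, d', hP, h1, h2, h3, h4, h5⟩ := h.exists_conn
  refine ⟨Cof_whiskerLeft Z j h.cof, isPushout_zero_whiskerLeft Z h.isPushout h.cof, ?_⟩
  refine ⟨Z ⊗ P, Z ◁ a, (m.tensorCone Z A).inv ≫ Z ◁ b, Z ◁ r,
    Z ◁ d' ≫ (m.tensorSusp Z A).hom, ?_, ?_, ?_, ?_, ?_, ?_⟩
  · refine (isPushout_whiskerLeft Z hP h.cof).of_iso (Iso.refl _) (Iso.refl _)
      (m.tensorCone Z A) (Iso.refl _) (by simp) ?_ (by simp) (by simp)
    rw [whiskerLeft_cin]
    simp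
  · rw [← MonoidalCategory.whiskerLeft_comp, h1]
  · rw [Category.assoc, ← MonoidalCategory.whiskerLeft_comp, h2]
    simp
  · rw [← MonoidalCategory.whiskerLeft_comp_assoc, h3]
    simp
  · rw [Category.assoc, ← MonoidalCategory.whiskerLeft_comp_assoc, h4, whiskerLeft_cpr,
      Iso.inv_hom_id_assoc]
  · have e1 : (m.tensorSusp Z A).hom ≫ (m.suspIso (Z ⊗ A)).inv =
        Z ◁ (m.suspIso A).inv ≫ (α_ Z A m.S).inv := by
      simp [tensorSusp]
    have e2 : δ L Z (A ⊗ m.S) ≫ L.obj Z ◁ δ L A m.S ≫ (α_ _ _ _).inv ≫ μ L Z A ▷ _ =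
        L.map (α_ Z A m.S).inv ≫ δ L (Z ⊗ A) m.S := by
      rw [Functor.OplaxMonoidal.associativity_inv_assoc, ← comp_whiskerRight, Functor.Monoidal.δ_μ]
      simp
    rw [shiftIso_hom_app, L.map_comp, Category.assoc, ← L.map_comp_assoc (m.tensorSusp Z A).hom,
      e1, ← δ_natural_right_assoc, ← MonoidalCategory.whiskerLeft_comp_assoc, h5,
      shiftIso_hom_app]
    simp only [MonoidalCategory.whiskerLeft_comp, Category.assoc, L.map_comp]
    rw [δ_natural_right_assoc, δ_natural_right_assoc, associator_inv_naturality_right_assoc,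
      whisker_exchange]
    rw [reassoc_of% e2]

end ConeModel

end tensor

end Vale.Agent.P251.H
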