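import Vale.Agent.P251.H.MonLoc.Sign
import Vale.Agent.P251.H.ShiftTT
import Vale.Agent.P251.H.Cof.Tri1

/-!
# P251, part H: the shift and the tensor product on the localization

Let `L : C ⥤ D` be a braided localization functor of a `TensorCofCat`, such that `S` is invertible
(there is a weak equivalence `w : Y ⊗ S ⟶ 𝟙`).  We get the shift on `D`, the isomorphism
`Susp ⋙ L ≅ L ⋙ shiftFunctor D 1`, and the exactness of `X ⊗ -`.
-/

open CategoryTheory Limits MonoidalCategory Pretriangulated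

universe v' u' v u

namespace Vale.Agent.P251.H

open CofCat ZeroObject TensorCofCat

section

variable {C : Type u} [Category.{v} C] [MonoidalCategory C]
  {D : Type u'} [Category.{v'} D] [MonoidalCategory D] (L : C ⥤ D) [L.Monoidal]

lemma tensor_aux₁ {X T₁ T₂ : D} {Z A B : C} (f : T₁ ⟶ T₂) (a : X ⟶ L.obj Z)
    (b : T₁ ⟶ L.obj A) (c : T₂ ⟶ L.obj B) (j : A ⟶ B) (h : f ≫ c = b ≫ L.map j) :
    (X ◁ f) ≫ (a ⊗ₘ c) ≫ Functor.LaxMonoidal.μ L Z B =
      ((a ⊗ₘ b) ≫ Functor.LaxMonoidal.μ L Z A) ≫ L.map (Z ◁ j) := by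
  rw [Category.assoc, ← Functor.LaxMonoidal.μ_natural_right, tensorHom_def', tensorHom_def',
    Category.assoc, Category.assoc, ← MonoidalCategory.whiskerLeft_comp_assoc, h,
    MonoidalCategory.whiskerLeft_comp_assoc, whisker_exchange_assoc]

lemma tensor_aux₃ {X T₁ T₃ K : D} {Z A Q : C} (f : T₃ ⟶ T₁ ⊗ K) (a : X ⟶ L.obj Z)
    (b : T₁ ⟶ L.obj A) (c : T₃ ⟶ L.obj Q) (d : L.obj Q ⟶ L.obj A ⊗ K)
    (h : f ≫ b ▷ K = c ≫ d) :
    ((X ◁ f) ≫ (α_ X T₁ K).inv) ≫ ((a ⊗ₘ b) ≫ Functor.LaxMonoidal.μ L Z A) ▷ K =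
      ((a ⊗ₘ c) ≫ Functor.LaxMonoidal.μ L Z Q) ≫
        (Functor.OplaxMonoidal.δ L Z Q ≫ L.obj Z ◁ d ≫ (α_ (L.obj Z) (L.obj A) K).inv ≫
          Functor.LaxMonoidal.μ L Z A ▷ K) := by
  simp only [Category.assoc, Functor.Monoidal.μ_δ_assoc, comp_whiskerRight, tensorHom_def']
  rw [← associator_inv_naturality_middle_assoc, ← associator_inv_naturality_left_assoc,
    ← MonoidalCategory.whiskerLeft_comp_assoc, h, MonoidalCategory.whiskerLeft_comp_assoc,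
    whisker_exchange_assoc]

end

section

variable {C : Type u} [Category.{v} C] [HasZeroObject C] [HasZeroMorphisms C]
  [HasBinaryCoproducts C] [CofCat C] [MonoidalCategory C] [SymmetricCategory C] [TensorCofCat C]
  {D : Type u'} [Category.{v'} D] [MonoidalCategory D] [SymmetricCategory D]
  (L : C ⥤ D) [L.Braided] [L.IsLocalization (W (C := C))]

/-- an invertible object of the localization -/
noncomputable def invObj {X Y : C} {w : Y ⊗ X ⟶ 𝟙_ C} (hw : W w) : InvObj D where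
  L := L.obj X
  L' := L.obj Y
  counit :=
    haveI := isIso_of_W (L := L) hw
    Functor.Monoidal.μIso L Y X ≪≫ asIso (L.map w) ≪≫ (Functor.Monoidal.εIso L).symm
  unit :=
    haveI := isIso_of_W (L := L) hw
    (β_ _ _) ≪≫ Functor.Monoidal.μIso L Y X ≪≫ asIso (L.map w) ≪≫
      (Functor.Monoidal.εIso L).symm

variable (m : ConeModel C) {Y : C} {w : Y ⊗ m.S ⟶ 𝟙_ C} (hw : W w)

/-- the comparison of the suspension and the shift -/
noncomputable def tau : letI := (invObj L hw).hasShift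
    Susp ⋙ L ≅ L ⋙ shiftFunctor D (1 : ℤ) :=
  m.shiftIso L (K := (invObj L hw).pow 1) (λ_ (L.obj m.S)).symm

/-- `X ⊗ -` preserves distinguished triangles. -/
theorem dist_tensor (X : D) :
    letI := (invObj L hw).hasShift
    ∀ (T : Triangle D), T ∈ dist (tau L m hw) →
      Triangle.mk (X ◁ T.mor₁) (X ◁ T.mor₂)
        ((X ◁ T.mor₃) ≫ (α_ X T.obj₁ ((invObj L hw).pow 1)).inv :
          X ⊗ T.obj₃ ⟶ (X ⊗ T.obj₁)⟦(1 : ℤ)⟧) ∈ dist (tau L m hw) := by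
  let K := (invObj L hw).pow 1
  let _ := (invObj L hw).hasShift
  rintro T ⟨A, B, Q, j, q, d, h, ⟨e⟩⟩
  have := Localization.essSurj L (W (C := C))
  let Z : C := L.objPreimage X
  let e₀ : X ≅ L.obj Z := (L.objObjPreimageIso X).symm
  have hc := ConeModel.isConn_tensor (L := L) (m := m) (K := K) (κ := (λ_ (L.obj m.S)).symm) Z
    (d := d) h
  refine ⟨_, _, _, Z ◁ j, Z ◁ q, _, hc, ⟨?_⟩⟩
  exact Triangle.isoMk _ _
    ((e₀ ⊗ᵢ Triangle.π₁.mapIso e) ≪≫ Functor.Monoidal.μIso L Z A)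
    ((e₀ ⊗ᵢ Triangle.π₂.mapIso e) ≪≫ Functor.Monoidal.μIso L Z B)
    ((e₀ ⊗ᵢ Triangle.π₃.mapIso e) ≪≫ Functor.Monoidal.μIso L Z Q)
    (tensor_aux₁ L T.mor₁ e₀.hom e.hom.hom₁ e.hom.hom₂ j e.hom.comm₁)
    (tensor_aux₁ L T.mor₂ e₀.hom e.hom.hom₂ e.hom.hom₃ q e.hom.comm₂)
    (tensor_aux₃ L (K := K) T.mor₃ e₀.hom e.hom.hom₁ e.hom.hom₃ d e.hom.comm₃)

end

end Vale.Agent.P251.H
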