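import Vale.Agent.P251.H.Cof.Tri
import Vale.Agent.P251.H.MonLoc.TensorTri

/-!
# P251, part H: the tensor triangulated localization

For a stable symmetric monoidal cofibration category `C` (`StabModel C`) and any localization
functor `L₀ : C ⥤ D₀` the type synonym `TT P L₀` of `D₀` is a tensor triangulated category; the
functor `TT.L P L₀ : C ⥤ TT P L₀` is a braided localization functor.
-/

open CategoryTheory Limits MonoidalCategory Pretriangulated

universe w v' u' v u

namespace Vale.Agent.P251.H

open CofCat ZeroObject TensorCofCat

/-- The data on a symmetric monoidal cofibration category which make its localization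
tensor triangulated. -/
structure StabModel (C : Type u) [Category.{v} C] [HasZeroObject C] [HasZeroMorphisms C]
    [HasBinaryCoproducts C] [CofCat C] [MonoidalCategory C] [SymmetricCategory C]
    [TensorCofCat C] where
  /-- the model of the cone and the circle -/
  m : ConeModel C
  /-- the reflection of the circle -/
  e : SignModel m
  /-- the inverse of the circle -/
  Y : C
  /-- the weak equivalence `Y ⊗ S ⟶ 𝟙` -/
  w : Y ⊗ m.S ⟶ 𝟙_ C
  hw : W w

variable {C : Type u} [Category.{v} C] [HasZeroObject C] [HasZeroMorphisms C]
  [HasBinaryCoproducts C] [CofCat C] [MonoidalCategory C] [SymmetricCategory C] [TensorCofCat C]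

section

variable {D : Type u'} [Category.{v'} D] [MonoidalCategory D] [SymmetricCategory D]
  (L : C ⥤ D) [L.Braided] [L.IsLocalization (W (C := C))]

include L in
/-- the tensor product of the localization preserves zero objects -/
theorem isZero_tensor_loc (Z X : D) (hX : IsZero X) : IsZero (Z ⊗ X) := by
  have := Localization.essSurj L (W (C := C))
  have h0 : IsZero (L.obj (L.objPreimage Z ⊗ (0 : C))) :=
    isZero_map L (isZero_tensor _ _ (isZero_zero C))
  have e : Z ⊗ X ≅ L.obj (L.objPreimage Z ⊗ (0 : C)) :=
    ((L.objObjPreimageIso Z).symm ⊗ᵢ (hX.iso (isZero_map L (isZero_zero C)))) ≪≫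
      Functor.Monoidal.μIso L _ _
  exact h0.of_iso e

include L in
/-- the tensor product of the localization preserves binary coproducts -/
theorem preservesColimit_pair_loc (Z X Y : D) : PreservesColimit (pair X Y) (tensorLeft Z) := by
  have := Localization.essSurj L (W (C := C))
  have := preservesBinaryCoproducts L
  exact MonLoc.preservesColimit_pair_tensorLeft L (fun _ _ => inferInstance)
    (fun _ _ => inferInstance) (fun Z A B => TensorCofCat.preservesColimit_pair Z A B) Z X Y

include L in
/-- the tensor product of the localization is additive -/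
theorem monoidalPreadditive_loc [Preadditive D] : MonoidalPreadditive D := by
  have := hasZeroObject L
  have := hasBinaryCoproducts L
  have := HasBinaryBiproducts.of_hasBinaryCoproducts (C := D)
  exact MonLoc.monoidalPreadditive (isZero_tensor_loc L) (preservesColimit_pair_loc L)

omit [TensorCofCat C] in
include L in
/-- the tensor product of the localization preserves coproducts -/
theorem preservesColimit_tensorLeft_loc {J : Type w} [HasCoproductsOfShape J C]
    [CofCoproducts C J]
    (h : ∀ (Z : C) (X : J → C), PreservesColimit (Discrete.functor X) (tensorLeft Z))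
    (Z : D) (X : J → D) : PreservesColimit (Discrete.functor X) (tensorLeft Z) := by
  have := Localization.essSurj L (W (C := C))
  have := preservesCoproducts L J
  exact MonLoc.preservesColimit_tensorLeft L (fun _ => inferInstance)
    (fun _ => inferInstance) h Z X

end

section

variable (P : StabModel C) {D₀ : Type u'} [Category.{v'} D₀] (L₀ : C ⥤ D₀)
  [L₀.IsLocalization (W (C := C))]

/-- The localization `D₀` with its tensor triangulated structure. -/
def TT (_ : StabModel C) (L₀ : C ⥤ D₀) [L₀.IsLocalization (W (C := C))] : Type u' :=
  LocalizedMonoidal L₀ (W (C := C)) (Iso.refl (L₀.obj (𝟙_ C)))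

noncomputable instance : Category.{v'} (TT P L₀) :=
  inferInstanceAs (Category (LocalizedMonoidal L₀ (W (C := C)) (Iso.refl (L₀.obj (𝟙_ C)))))

noncomputable instance : MonoidalCategory (TT P L₀) :=
  inferInstanceAs (MonoidalCategory
    (LocalizedMonoidal L₀ (W (C := C)) (Iso.refl (L₀.obj (𝟙_ C)))))

noncomputable instance : SymmetricCategory (TT P L₀) :=
  inferInstanceAs (SymmetricCategory
    (LocalizedMonoidal L₀ (W (C := C)) (Iso.refl (L₀.obj (𝟙_ C)))))

namespace TT

/-- The localization functor. -/
noncomputable def L : C ⥤ TT P L₀ :=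
  Localization.Monoidal.toMonoidalCategory L₀ (W (C := C)) (Iso.refl (L₀.obj (𝟙_ C)))

noncomputable instance : (TT.L P L₀).Braided :=
  inferInstanceAs (Localization.Monoidal.toMonoidalCategory L₀ (W (C := C))
    (Iso.refl (L₀.obj (𝟙_ C)))).Braided

instance : (TT.L P L₀).IsLocalization (W (C := C)) :=
  inferInstanceAs (L₀.IsLocalization (W (C := C)))

instance : HasZeroObject (TT P L₀) := hasZeroObject (TT.L P L₀)

/-- the invertible object -/
noncomputable def inv : InvObj (TT P L₀) := invObj (TT.L P L₀) P.hw

noncomputable instance : HasShift (TT P L₀) ℤ := (inv P L₀).hasShift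

/-- the comparison of the suspension and the shift -/
noncomputable def τ : Susp ⋙ TT.L P L₀ ≅ TT.L P L₀ ⋙ shiftFunctor (TT P L₀) (1 : ℤ) :=
  tau (TT.L P L₀) P.m P.hw

noncomputable instance : Preadditive (TT P L₀) := locPreadditive (τ P L₀)

instance (n : ℤ) : (shiftFunctor (TT P L₀) n).Additive := locShift_additive (L := TT.L P L₀) n

noncomputable instance : Pretriangulated (TT P L₀) := locPretriangulated (τ P L₀)

theorem distTriang_eq : (distTriang (TT P L₀)) = dist (τ P L₀) := rfl

instance : IsTriangulated (TT P L₀) := locIsTriangulated (τ P L₀)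

instance : MonoidalPreadditive (TT P L₀) := monoidalPreadditive_loc (TT.L P L₀)

/-- the swap of the invertible object is `-1` -/
theorem braiding_inv : (β_ (inv P L₀).L (inv P L₀).L).hom = -𝟙 _ :=
  P.e.braiding_eq (TT.L P L₀) (loc_map_q₁ (τ P L₀) _)

noncomputable instance : T.TensorTriangulated (TT P L₀) :=
  (inv P L₀).tensorTriangulated (fun X Δ hΔ => dist_tensor (TT.L P L₀) P.m P.hw X Δ hΔ)
    (braiding_inv P L₀)

instance (J : Type w) [HasCoproductsOfShape J C] [CofCoproducts C J] :
    HasCoproductsOfShape J (TT P L₀) := hasCoproductsOfShape (TT.L P L₀) J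

instance (J : Type w) [HasCoproductsOfShape J C] [CofCoproducts C J] :
    PreservesColimitsOfShape (Discrete J) (TT.L P L₀) := preservesCoproducts (TT.L P L₀) J

/-- `Z ⊗ -` preserves coproducts -/
theorem preservesColimit_tensorLeft {J : Type w} [HasCoproductsOfShape J C] [CofCoproducts C J]
    (h : ∀ (Z : C) (X : J → C), PreservesColimit (Discrete.functor X) (tensorLeft Z))
    (Z : TT P L₀) (X : J → TT P L₀) : PreservesColimit (Discrete.functor X) (tensorLeft Z) :=
  preservesColimit_tensorLeft_loc (TT.L P L₀) h Z X

end TT

end

end Vale.Agent.P251.H
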