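import Vale.Agent.P251.H.FlatCat
import Vale.Agent.P251.H.MonLoc.Final

/-!
# P251, part H: the tensor product of flat objects preserves coproducts
-/

open CategoryTheory MonoidalCategory Limits

namespace Vale.Agent.P251.H

universe v u

namespace StabInput

variable {M : Type u} [Category.{v} M] [MonoidalCategory M] [SymmetricCategory M]
  [MonoidalClosed M] [HasZeroMorphisms M] [HasColimitsOfSize.{0, 0} M] [StabInput M]
  (W : MorphismProperty M) [GoodW W]

/-- `Z ⊗ -` preserves coproducts of flat objects -/
theorem flat_preservesColimit_tensorLeft {J : Type} (Z : FlatCat W) (X : J → FlatCat W) :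
    PreservesColimit (Discrete.functor X) (tensorLeft Z) := by
  let e : tensorLeft Z ⋙ (Flat W).ι ≅ (Flat W).ι ⋙ tensorLeft Z.obj :=
    NatIso.ofComponents (fun _ => Iso.refl _) (by
      intro A B f
      exact (Category.comp_id _).trans (Category.id_comp _).symm)
  have h1 : PreservesColimit (Discrete.functor X) ((Flat W).ι ⋙ tensorLeft Z.obj) :=
    inferInstance
  have h2 : PreservesColimit (Discrete.functor X) (tensorLeft Z ⋙ (Flat W).ι) :=
    preservesColimit_of_natIso _ e.symm
  exact preservesColimit_of_reflects_of_preserves (tensorLeft Z) (Flat W).ι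

end StabInput

end Vale.Agent.P251.H
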