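import Vale.Agent.P251.G.Pushout
import Vale.Agent.P251.G.Cofib
import Vale.Agent.P251.I.Spaces
import Vale.Agent.P251.H.SwapRR

/-!
# P251, part H: the cone and the suspension of the point in `LC`

* `collI : II ⟶ HH` collapses the end `1` of the interval;
* `isPushout_collI`, `isPushout_openPart`: `HH = II / 1`, `RR = HH / 0`;
* `posRR, negHH : HH ⟶ RR`: the two half lines, `isPushout_halfLines`;
* `expRR : RR ⟶ RR` the collapse onto `(0, ∞) ≅ ℝ`; it is homotopic to the identity.
-/

open CategoryTheory MonoidalCategory Limits Topology OnePoint Filter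

namespace Vale.Agent.P251.H

open Vale.Agent.P251.G Vale.Agent.P251.G.LC

/-- the open embedding `s ↦ s / (1 + s)` of `[0, ∞)` in `[0, 1]` -/
noncomputable def hhII (s : NNReal) : unitInterval := unitInterval.symm (coneFun s)

theorem isOpenEmbedding_hhII : IsOpenEmbedding hhII :=
  (unitInterval.symmHomeomorph.isOpenEmbedding).comp isOpenEmbedding_coneFun

/-- the collapse of the end `1` of the interval -/
noncomputable def collI : II ⟶ HH := ofOpen (X := II) (Y := HH) hhII isOpenEmbedding_hhII

theorem hhII_zero : hhII 0 = 0 := by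
  apply Subtype.ext
  change 1 - (1 / (1 + ((0 : NNReal) : ℝ))) = 0
  simp

theorem mem_range_hhII (t : unitInterval) : t ∈ Set.range hhII ↔ t ≠ 1 := by
  constructor
  · rintro ⟨s, rfl⟩ h
    have h1 : 1 - (1 / (1 + (s : ℝ))) = 1 := congrArg Subtype.val h
    have hs : (0 : ℝ) ≤ s := s.2
    have : 0 < 1 / (1 + (s : ℝ)) := by positivity
    linarith
  · intro h
    have h1 : (t : ℝ) < 1 := lt_of_le_of_ne t.2.2 (fun h' => h (Subtype.ext h'))
    have h0 : (0 : ℝ) ≤ t := t.2.1
    refine ⟨⟨(t : ℝ) / (1 - t), div_nonneg h0 (by linarith)⟩, Subtype.ext ?_⟩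
    change 1 - (1 / (1 + (t : ℝ) / (1 - t))) = t
    have h2 : (1 : ℝ) - t ≠ 0 := by linarith
    have h3 : 1 + (t : ℝ) / (1 - t) = 1 / (1 - t) := by field_simp; ring
    rw [h3, one_div_one_div]
    ring

theorem point_collI : point (X := II) 0 ≫ collI = point (X := HH) 0 := by
  apply hom_ext
  intro x
  rw [app_comp]
  change app collI ((0 : unitInterval) : OnePoint unitInterval) = ((0 : NNReal) : OnePoint NNReal)
  have h := app_ofOpen_coe (X := II) (Y := HH) hhII isOpenEmbedding_hhII 0
  rwa [hhII_zero] at h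

theorem mem_range_point {X : LC} (x : X) (y : OnePoint X) :
    y ∈ Set.range (app (point x)) ↔ y = x ∨ y = ∞ := by
  constructor
  · rintro ⟨u, rfl⟩
    induction u using OnePoint.rec with
    | infty => exact Or.inr (app_infty _)
    | coe u => exact Or.inl rfl
  · rintro (rfl | rfl)
    · exact ⟨((() : Unit) : OnePoint Unit), rfl⟩
    · exact ⟨∞, app_infty _⟩

/-- `HH = II / 1` -/
theorem isPushout_collI {Z : LC} (hZ : IsZero Z) (f : 𝟙_ LC ⟶ Z) (k : Z ⟶ HH) :
    IsPushout (point (X := II) 1) f collI k := by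
  refine LC.isPushout_collapse (B := II) (U := HH) (i := point (X := II) 1) hhII
    isOpenEmbedding_hhII ?_ hZ f k
  intro t
  rw [mem_range_hhII, mem_range_point]
  constructor
  · rintro h (h1 | h1)
    · exact h (OnePoint.coe_injective h1)
    · exact OnePoint.coe_ne_infty _ h1
  · rintro h rfl
    exact h (Or.inl rfl)

theorem mem_range_expH (x : NNReal) : x ∈ Set.range expH ↔ x ≠ 0 := mem_range_expHH x

/-- `RR = HH / 0` -/
theorem isPushout_openPart {Z : LC} (hZ : IsZero Z) (f : 𝟙_ LC ⟶ Z) (k : Z ⟶ RR) :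
    IsPushout (point (X := HH) 0) f openPart k := by
  refine LC.isPushout_collapse (B := HH) (U := RR) (i := point (X := HH) 0) expH
    isOpenEmbedding_expH ?_ hZ f k
  intro t
  rw [mem_range_expH, mem_range_point]
  constructor
  · rintro h (h1 | h1)
    · exact h (OnePoint.coe_injective h1)
    · exact OnePoint.coe_ne_infty _ h1
  · rintro h rfl
    exact h (Or.inl rfl)

/-- the positive half line -/
noncomputable def posRR : HH ⟶ RR :=
  ofClosed (X := HH) (Y := RR) NNReal.toReal
    (IsClosedEmbedding.of_continuous_injective_isClosedMap NNReal.continuous_coe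
      NNReal.coe_injective NNReal.isClosedEmbedding_coe.isClosedMap)

/-- the negative half line -/
noncomputable def minRR : HH ⟶ RR := posRR ≫ negRR

theorem app_posRR (s : NNReal) : app posRR (s : OnePoint NNReal) = ((s : ℝ) : OnePoint ℝ) := rfl

theorem app_minRR (s : NNReal) : app minRR (s : OnePoint NNReal) = ((-(s : ℝ) : ℝ) : OnePoint ℝ) :=
  rfl

theorem negRR_negRR : negRR ≫ negRR = 𝟙 RR := by
  apply hom_ext
  intro x
  change ((-(-x) : ℝ) : OnePoint ℝ) = x
  rw [neg_neg]

theorem posRR_negRR : posRR ≫ negRR = minRR := rfl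

theorem minRR_negRR : minRR ≫ negRR = posRR := by
  rw [minRR, Category.assoc, negRR_negRR, Category.comp_id]

/-- the line is the union of the two half lines -/
theorem isPushout_halfLines :
    IsPushout (point (X := HH) 0) (point (X := HH) 0) posRR minRR := by
  have hpos : Function.Injective (app posRR) := by
    have h1 : IsClosedEmbedding NNReal.toReal :=
      IsClosedEmbedding.of_continuous_injective_isClosedMap NNReal.continuous_coe
        NNReal.coe_injective NNReal.isClosedEmbedding_coe.isClosedMap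
    exact Option.map_injective h1.injective
  have hmin : Function.Injective (app minRR) := by
    intro a b h
    apply hpos
    have h2 := congrArg (app negRR) h
    rwa [← app_comp, ← app_comp, minRR_negRR] at h2
  refine LC.isPushout_of ?_ hmin ⟨?_, hpos.injOn, ?_⟩
  · apply hom_ext
    intro x
    rw [app_comp, app_comp]
    change (((0 : NNReal) : ℝ) : OnePoint ℝ) = ((-((0 : NNReal) : ℝ) : ℝ) : OnePoint ℝ)
    simp
  · intro s hs
    rw [Set.mem_compl_iff, mem_range_point] at hs
    rintro ⟨u, hu⟩
    induction s using OnePoint.rec with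
    | infty => exact hs (Or.inr rfl)
    | coe s =>
      have hs0 : s ≠ 0 := fun h => hs (Or.inl (congrArg _ h))
      have hs1 : (0 : ℝ) < s := NNReal.coe_pos.mpr (pos_iff_ne_zero.mpr hs0)
      induction u using OnePoint.rec with
      | infty =>
        rw [app_infty] at hu
        exact OnePoint.infty_ne_coe _ hu
      | coe u =>
        have h1 : -(u : ℝ) = s := OnePoint.coe_injective hu
        have h2 : (0 : ℝ) ≤ u := u.2
        linarith
  · intro x hx
    induction x using OnePoint.rec with
    | infty => exact absurd ⟨∞, app_infty minRR⟩ hx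
    | coe x =>
      have hx0 : 0 < x := by
        by_contra h
        rw [not_lt] at h
        let s : NNReal := ⟨-x, by linarith⟩
        refine hx ⟨(s : OnePoint NNReal), ?_⟩
        change ((-(-x) : ℝ) : OnePoint ℝ) = x
        rw [neg_neg]
      let s : NNReal := ⟨x, hx0.le⟩
      refine ⟨(s : OnePoint NNReal), ?_, rfl⟩
      rw [Set.mem_compl_iff, mem_range_point]
      rintro (h | h)
      · exact hx0.ne' (congrArg NNReal.toReal (OnePoint.coe_injective h))
      · exact OnePoint.coe_ne_infty _ h

/-- the collapse onto `(0, ∞) ≅ ℝ` -/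
noncomputable def expRR : RR ⟶ RR := ofOpen (X := RR) (Y := RR) Real.exp Real.isOpenEmbedding_exp

theorem posRR_expRR : posRR ≫ expRR = openPart := by
  apply hom_ext
  intro s
  rw [app_comp, app_posRR]
  by_cases hs : s = 0
  · subst hs
    have h1 : app openPart ((0 : NNReal) : OnePoint NNReal) = ∞ :=
      app_ofOpen_of_notMem (X := HH) (Y := RR) expH isOpenEmbedding_expH
        (by rw [mem_range_expH]; simp)
    have h2 : app expRR (((0 : NNReal) : ℝ) : OnePoint ℝ) = ∞ :=
      app_ofOpen_of_notMem (X := RR) (Y := RR) Real.exp Real.isOpenEmbedding_exp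
        (by rintro ⟨x, hx⟩; exact absurd hx (by simp))
    rw [h1, h2]
  · obtain ⟨t, rfl⟩ := (mem_range_expH s).mpr hs
    have h1 : app openPart ((expH t : NNReal) : OnePoint NNReal) = (t : OnePoint ℝ) :=
      app_ofOpen_coe (X := HH) (Y := RR) expH isOpenEmbedding_expH t
    rw [h1]
    exact app_ofOpen_coe (X := RR) (Y := RR) Real.exp Real.isOpenEmbedding_exp t

theorem minRR_expRR : minRR ≫ expRR = 0 := by
  apply hom_ext
  intro s
  rw [app_comp, app_minRR, app_zero]
  refine app_ofOpen_of_notMem (X := RR) (Y := RR) Real.exp Real.isOpenEmbedding_exp ?_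
  rintro ⟨x, hx⟩
  have h1 := Real.exp_pos x
  have h2 : (0 : ℝ) ≤ s := s.2
  linarith

/-- the family `(1 - t) exp x + t x` of increasing functions -/
noncomputable def expFam (p : ℝ × unitInterval) : ℝ × unitInterval :=
  ((1 - (p.2 : ℝ)) * Real.exp p.1 + p.2 * p.1, p.2)

theorem expFam_lt {x y : ℝ} (h : x < y) (t : unitInterval) :
    (expFam (x, t)).1 < (expFam (y, t)).1 := by
  have h0 : (0 : ℝ) ≤ t := t.2.1
  have h1 : (0 : ℝ) ≤ 1 - t := by linarith [t.2.2]
  have h2 : Real.exp x < Real.exp y := Real.exp_lt_exp.mpr h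
  change (1 - (t : ℝ)) * Real.exp x + t * x < (1 - (t : ℝ)) * Real.exp y + t * y
  rcases h0.lt_or_eq with h3 | h3
  · nlinarith
  · rw [← h3]
    simpa using h2

theorem continuous_expFam : Continuous expFam := by
  unfold expFam
  fun_prop

theorem isOpenEmbedding_expFam : IsOpenEmbedding expFam := by
  refine IsOpenEmbedding.of_continuous_injective_isOpenMap continuous_expFam ?_ ?_
  · rintro ⟨x, t⟩ ⟨y, s⟩ h
    obtain rfl : t = s := congrArg Prod.snd h
    have h1 : (expFam (x, t)).1 = (expFam (y, t)).1 := congrArg Prod.fst h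
    rcases lt_trichotomy x y with h2 | h2 | h2
    · exact absurd h1 (expFam_lt h2 t).ne
    · rw [h2]
    · exact absurd h1 (expFam_lt h2 t).ne'
  · intro U hU
    rw [isOpen_iff_mem_nhds]
    rintro _ ⟨⟨x, t⟩, hxt, rfl⟩
    obtain ⟨A, hA, V, hV, hAV⟩ := mem_nhds_prod_iff.mp (hU.mem_nhds hxt)
    obtain ⟨ε, hε, hεA⟩ := Metric.mem_nhds_iff.mp hA
    have hab : Set.Icc (x - ε / 2) (x + ε / 2) ⊆ A := by
      intro z hz
      apply hεA
      rw [Metric.mem_ball, Real.dist_eq, abs_lt]
      constructor <;> linarith [hz.1, hz.2]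
    have c1 : Continuous (fun q : ℝ × unitInterval => (expFam (x - ε / 2, q.2)).1) :=
      continuous_fst.comp (continuous_expFam.comp (by fun_prop))
    have c2 : Continuous (fun q : ℝ × unitInterval => (expFam (x + ε / 2, q.2)).1) :=
      continuous_fst.comp (continuous_expFam.comp (by fun_prop))
    have n1 : {q : ℝ × unitInterval | (expFam (x - ε / 2, q.2)).1 < q.1} ∈ 𝓝 (expFam (x, t)) :=
      (isOpen_lt c1 continuous_fst).mem_nhds (expFam_lt (by linarith) t)
    have n2 : {q : ℝ × unitInterval | q.1 < (expFam (x + ε / 2, q.2)).1} ∈ 𝓝 (expFam (x, t)) :=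
      (isOpen_lt continuous_fst c2).mem_nhds (expFam_lt (by linarith) t)
    have n3 : {q : ℝ × unitInterval | q.2 ∈ V} ∈ 𝓝 (expFam (x, t)) :=
      continuous_snd.continuousAt.preimage_mem_nhds hV
    filter_upwards [n1, n2, n3] with q h1 h2 h3
    obtain ⟨y, s⟩ := q
    have c3 : Continuous (fun z : ℝ => (expFam (z, s)).1) :=
      continuous_fst.comp (continuous_expFam.comp (by fun_prop))
    obtain ⟨z, hz, hz'⟩ := intermediate_value_Icc (by linarith : x - ε / 2 ≤ x + ε / 2)
      c3.continuousOn ⟨h1.le, h2.le⟩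
    exact ⟨(z, s), hAV ⟨hab hz, h3⟩, Prod.ext hz' rfl⟩

/-- the collapse onto `(0, ∞) ≅ ℝ` is homotopic to the identity -/
theorem homotopic_expRR : LC.Homotopic expRR (𝟙 RR) := by
  refine ⟨ofOpen (X := RR ⊗ II) (Y := RR ⊗ II) expFam isOpenEmbedding_expFam ≫ prLC RR, ?_, ?_⟩
  · apply hom_ext
    intro x
    rw [app_comp, app_comp, app_incl]
    change app (prLC RR) (app (ofOpen (X := RR ⊗ II) (Y := RR ⊗ II) expFam
      isOpenEmbedding_expFam) (((x, 0) : ℝ × unitInterval) : OnePoint (ℝ × unitInterval))) = _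
    by_cases hx : x ∈ Set.range Real.exp
    · obtain ⟨u, rfl⟩ := hx
      have e1 : (Real.exp u, (0 : unitInterval)) = expFam (u, 0) := by
        simp [expFam]
      have h1 : app expRR ((Real.exp u : ℝ) : OnePoint ℝ) = (u : OnePoint ℝ) :=
        app_ofOpen_coe (X := RR) (Y := RR) Real.exp Real.isOpenEmbedding_exp u
      have h2 := app_ofOpen_coe (X := RR ⊗ II) (Y := RR ⊗ II) expFam isOpenEmbedding_expFam (u, 0)
      rw [← e1] at h2
      rw [h1]
      exact congrArg (app (prLC RR)) h2
    · have h1 : app expRR (x : OnePoint ℝ) = ∞ :=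
        app_ofOpen_of_notMem (X := RR) (Y := RR) Real.exp Real.isOpenEmbedding_exp hx
      have h2 : app (ofOpen (X := RR ⊗ II) (Y := RR ⊗ II) expFam isOpenEmbedding_expFam)
          (((x, 0) : ℝ × unitInterval) : OnePoint (ℝ × unitInterval)) = ∞ := by
        refine app_ofOpen_of_notMem (X := RR ⊗ II) (Y := RR ⊗ II) expFam isOpenEmbedding_expFam ?_
        rintro ⟨⟨u, s⟩, hu⟩
        obtain rfl : s = 0 := congrArg Prod.snd hu
        exact hx ⟨u, by simpa [expFam] using congrArg Prod.fst hu⟩
      rw [h1]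
      exact (congrArg (app (prLC RR)) h2).trans (app_infty _)
  · apply hom_ext
    intro x
    rw [app_comp, app_comp, app_incl]
    have e1 : (x, (1 : unitInterval)) = expFam (x, 1) := by
      simp [expFam]
    have h2 := app_ofOpen_coe (X := RR ⊗ II) (Y := RR ⊗ II) expFam isOpenEmbedding_expFam (x, 1)
    rw [← e1] at h2
    exact congrArg (app (prLC RR)) h2

end Vale.Agent.P251.H
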