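import Vale.Agent.P251.H.MonLoc.Exact
import Vale.Agent.P251.H.Cof.Star

/-!
# P251, part H: the sign of the swap of the circle

If `L (q₁) = - L (q₀)` on double cones (exchange of the two cones of the suspension is `-1`), then
the flip of the circle `S` is `-1` in the localization; if moreover `flip ⊗ S` is homotopic to
the swap of `S ⊗ S`, the swap of `L S ⊗ L S` is `-1`.
-/

open CategoryTheory Limits MonoidalCategory

universe v' u' v u

namespace Vale.Agent.P251.H

open CofCat ZeroObject TensorCofCat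

section

variable {C : Type u} [Category.{v} C] [HasZeroObject C] [HasZeroMorphisms C]
  [HasBinaryCoproducts C] [CofCat C] [MonoidalCategory C] [SymmetricCategory C] [TensorCofCat C]

/-- Data on the circle `S`: it is the union of two cones `pos, neg : CI ⟶ S` exchanged by `flip`,
the collapse of `neg` is homotopic to the identity, and `flip ⊗ S` is homotopic to the swap. -/
structure SignModel (m : ConeModel C) where
  /-- the first half of the circle -/
  pos : m.CI ⟶ m.S
  /-- the second half of the circle -/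
  neg : m.CI ⟶ m.S
  isPushout : IsPushout m.c m.c pos neg
  /-- the reflection of the circle -/
  flip : m.S ⟶ m.S
  pos_flip : pos ≫ flip = neg
  neg_flip : neg ≫ flip = pos
  /-- the collapse of the second half -/
  ex : m.S ⟶ m.S
  pos_ex : pos ≫ ex = m.s
  neg_ex : neg ≫ ex = 0
  htpy_ex : Htpy ex (𝟙 m.S)
  htpy_swap : Htpy (flip ▷ m.S) (β_ m.S m.S).hom

variable {m : ConeModel C} (e : SignModel m)

/-- `CI ≅ Cone 𝟙` -/
noncomputable def ConeModel.unitCone (m : ConeModel C) : m.CI ≅ Cone.obj (𝟙_ C) :=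
  (λ_ m.CI).symm ≪≫ m.coneIso (𝟙_ C)

/-- `S ≅ Susp 𝟙` -/
noncomputable def ConeModel.unitSusp (m : ConeModel C) : m.S ≅ Susp.obj (𝟙_ C) :=
  (λ_ m.S).symm ≪≫ m.suspIso (𝟙_ C)

@[reassoc]
lemma ConeModel.c_unitCone (m : ConeModel C) : m.c ≫ m.unitCone.hom = cin (𝟙_ C) := by
  rw [← m.coneIn_coneIso]
  simp [ConeModel.unitCone, ConeModel.coneIn, unitors_equal]

@[reassoc]
lemma ConeModel.s_unitSusp (m : ConeModel C) :
    m.s ≫ m.unitSusp.hom = m.unitCone.hom ≫ cpr (𝟙_ C) := by
  simp only [ConeModel.unitCone, ConeModel.unitSusp, Iso.trans_hom, Iso.symm_hom, Category.assoc]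
  rw [← m.s_suspIso, leftUnitor_inv_naturality_assoc]

namespace SignModel

/-- the circle is the double cone of the unit -/
noncomputable def dcIso : DC.obj (𝟙_ C) ≅ m.S where
  hom := dDesc (m.unitCone.inv ≫ e.pos) (m.unitCone.inv ≫ e.neg) (by
    rw [← m.c_unitCone, Category.assoc, Category.assoc, Iso.hom_inv_id_assoc,
      Iso.hom_inv_id_assoc, e.isPushout.w])
  inv := e.isPushout.desc (m.unitCone.hom ≫ dl _) (m.unitCone.hom ≫ dr _) (by
    rw [m.c_unitCone_assoc, m.c_unitCone_assoc, cin_dl])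
  hom_inv_id := by
    apply dc_hom_ext
    · rw [dl_dDesc_assoc, Category.assoc, e.isPushout.inl_desc]
      simp
    · rw [dr_dDesc_assoc, Category.assoc, e.isPushout.inr_desc]
      simp
  inv_hom_id := by
    apply e.isPushout.hom_ext
    · rw [e.isPushout.inl_desc_assoc, Category.assoc, dl_dDesc]
      simp
    · rw [e.isPushout.inr_desc_assoc, Category.assoc, dr_dDesc]
      simp

@[reassoc]
lemma dl_dcIso : dl (𝟙_ C) ≫ e.dcIso.hom = m.unitCone.inv ≫ e.pos := dl_dDesc _ _ _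

@[reassoc]
lemma dr_dcIso : dr (𝟙_ C) ≫ e.dcIso.hom = m.unitCone.inv ≫ e.neg := dr_dDesc _ _ _

@[reassoc]
lemma swap_dcIso : swap (𝟙_ C) ≫ e.dcIso.hom = e.dcIso.hom ≫ e.flip := by
  apply dc_hom_ext
  · rw [dl_swap_assoc, dr_dcIso, dl_dcIso_assoc, e.pos_flip]
  · rw [dr_swap_assoc, dl_dcIso, dr_dcIso_assoc, e.neg_flip]

@[reassoc]
lemma dcIso_ex : e.dcIso.hom ≫ e.ex = q₀ (𝟙_ C) ≫ m.unitSusp.inv := by
  apply dc_hom_ext
  · rw [dl_dcIso_assoc, e.pos_ex, dl_q₀_assoc, Iso.eq_comp_inv, Category.assoc, m.s_unitSusp,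
      Iso.inv_hom_id_assoc]
  · rw [dr_dcIso_assoc, e.neg_ex, dr_q₀_assoc]
    simp

variable {D : Type u'} [Category.{v'} D] (L : C ⥤ D) [L.IsLocalization (W (C := C))]
  [Preadditive D]

/-- The reflection of the circle is `-1` in the localization. -/
theorem map_flip (h : L.map (q₁ (𝟙_ C)) = -L.map (q₀ (𝟙_ C))) :
    L.map e.flip = -𝟙 (L.obj m.S) := by
  have h1 : L.map e.ex = 𝟙 _ := by rw [map_eq_of_Htpy L e.htpy_ex, L.map_id]
  have h2 : L.map e.dcIso.hom = L.map (q₀ (𝟙_ C)) ≫ L.map m.unitSusp.inv := by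
    have := congrArg L.map e.dcIso_ex
    rwa [L.map_comp, h1, Category.comp_id, L.map_comp] at this
  have h3 : L.map (swap (𝟙_ C)) ≫ L.map e.dcIso.hom = L.map e.dcIso.hom ≫ L.map e.flip := by
    rw [← L.map_comp, ← L.map_comp, e.swap_dcIso]
  rw [← cancel_epi (L.map e.dcIso.hom), ← h3, h2, ← L.map_comp_assoc, swap_q₀, h]
  simp

variable [MonoidalCategory D] [SymmetricCategory D] [MonoidalPreadditive D]

include e in
/-- The swap of the circle is `-1` in the localization. -/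
theorem braiding_eq [L.Braided] (h : L.map (q₁ (𝟙_ C)) = -L.map (q₀ (𝟙_ C))) :
    (β_ (L.obj m.S) (L.obj m.S)).hom = -𝟙 _ := by
  have h1 : L.map (β_ m.S m.S).hom = L.map (e.flip ▷ m.S) := (map_eq_of_Htpy L e.htpy_swap).symm
  have h2 : Functor.LaxMonoidal.μ L m.S m.S ≫ L.map (β_ m.S m.S).hom =
      (β_ (L.obj m.S) (L.obj m.S)).hom ≫ Functor.LaxMonoidal.μ L m.S m.S :=
    Functor.LaxBraided.braided _ _
  rw [← cancel_mono (Functor.LaxMonoidal.μ L m.S m.S), ← h2, h1,
    ← Functor.LaxMonoidal.μ_natural_left, e.map_flip L h]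
  have h3 : (-𝟙 (L.obj m.S)) ▷ L.obj m.S = -𝟙 (L.obj m.S ⊗ L.obj m.S) := by
    refine ((tensorRight (L.obj m.S)).map_neg (f := 𝟙 (L.obj m.S))).trans ?_
    rw [CategoryTheory.Functor.map_id]
    rfl
  rw [h3]

end SignModel

end

end Vale.Agent.P251.H
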