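import Mathlib.CategoryTheory.Localization.Monoidal.Braided
import Mathlib.CategoryTheory.Monoidal.Preadditive
import Mathlib.CategoryTheory.Preadditive.AdditiveFunctor
import Mathlib.CategoryTheory.Limits.Preserves.Shapes.Products
import Mathlib.CategoryTheory.Limits.Preserves.Shapes.BinaryProducts
import Mathlib.CategoryTheory.Limits.Shapes.ZeroMorphisms
import Mathlib.CategoryTheory.Limits.Preserves.Shapes.Zero
import Mathlib.CategoryTheory.Limits.Shapes.Products

/-!
# P251, part H: functors induced on localizations, coproducts and additivity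

Let `L : C ⥤ D` and `L' : C' ⥤ D'` be essentially surjective functors preserving some coproducts and
`G : D ⥤ D'` a functor induced by `F : C ⥤ C'`.  If `F` preserves coproducts, so does `G`.
In particular the functors `X ⊗ -` on the localization of a monoidal category preserve coproducts
and are additive.
-/

open CategoryTheory Limits MonoidalCategory

universe w

namespace Vale.Agent.P251.H.MonLoc

section coproducts

variable {C D C' D' : Type*} [Category* C] [Category* D] [Category* C'] [Category* D']
  {F : C ⥤ C'} {L : C ⥤ D} {L' : C' ⥤ D'} {G : D ⥤ D'}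

/-- a functor induced by a coproduct preserving functor preserves coproducts -/
theorem preservesColimit_discrete_of_iso [L.EssSurj] {J : Type w} (e : L ⋙ G ≅ F ⋙ L')
    (hC : ∀ Y : J → C, HasCoproduct Y)
    (hL : ∀ Y : J → C, PreservesColimit (Discrete.functor Y) L)
    (hF : ∀ Y : J → C, PreservesColimit (Discrete.functor Y) F)
    (hL' : ∀ Y : J → C', PreservesColimit (Discrete.functor Y) L') (X : J → D) :
    PreservesColimit (Discrete.functor X) G := by
  let Y : J → C := fun i => L.objPreimage (X i)
  let a : ∀ i, L.obj (Y i) ≅ X i := fun i => L.objObjPreimageIso (X i)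
  have := hC Y
  have := hL Y
  have := hF Y
  have h1 : PreservesColimit (Discrete.functor (fun i => F.obj (Y i))) L' := hL' _
  -- the coproduct of the `Y i` is sent to a coproduct by `L ⋙ G`
  let c : Cocone (Discrete.functor Y) := colimit.cocone (Discrete.functor Y)
  have hc : IsColimit c := colimit.isColimit _
  have h2 : PreservesColimit (Discrete.functor Y ⋙ F) L' :=
    preservesColimit_of_iso_diagram L' (Discrete.compNatIsoDiscrete Y F).symm
  have h3 : PreservesColimit (Discrete.functor Y) (F ⋙ L') := inferInstance
  have h4 : PreservesColimit (Discrete.functor Y) (L ⋙ G) :=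
    preservesColimit_of_natIso _ e.symm
  have h5 : IsColimit ((L ⋙ G).mapCocone c) := isColimitOfPreserves _ hc
  have h6 : IsColimit (L.mapCocone c) := isColimitOfPreserves _ hc
  have h7 : PreservesColimit (Discrete.functor Y ⋙ L) G :=
    preservesColimit_of_preserves_colimit_cocone h6 h5
  exact preservesColimit_of_iso_diagram G
    (Discrete.natIso (fun i => a i.as) : Discrete.functor Y ⋙ L ≅ Discrete.functor X)

/-- coproducts exist in `D` if they exist in `C` and are preserved by `L : C ⥤ D` -/
theorem hasCoproducts_of_essSurj [L.EssSurj] (hC : HasCoproducts.{w} C)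
    (hL : ∀ {J : Type w} (Y : J → C), PreservesColimit (Discrete.functor Y) L) :
    HasCoproducts.{w} D := by
  intro J
  constructor
  intro K
  let Y : J → C := fun i => L.objPreimage (K.obj ⟨i⟩)
  have := hL Y
  have : HasCoproduct Y := inferInstance
  have h : HasColimit (Discrete.functor Y ⋙ L) :=
    ⟨⟨⟨L.mapCocone (colimit.cocone (Discrete.functor Y)),
      isColimitOfPreserves L (colimit.isColimit _)⟩⟩⟩
  let e : Discrete.functor Y ⋙ L ≅ K :=
    Discrete.natIso (fun i => L.objObjPreimageIso (K.obj i))
  exact hasColimit_of_iso e.symm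

/-- the same for binary coproducts -/
theorem preservesColimit_pair_of_iso [L.EssSurj] (e : L ⋙ G ≅ F ⋙ L')
    (hC : ∀ A B : C, HasBinaryCoproduct A B)
    (hL : ∀ A B : C, PreservesColimit (pair A B) L)
    (hF : ∀ A B : C, PreservesColimit (pair A B) F)
    (hL' : ∀ A B : C', PreservesColimit (pair A B) L') (X Y : D) :
    PreservesColimit (pair X Y) G := by
  let A : C := L.objPreimage X
  let B : C := L.objPreimage Y
  let a : L.obj A ≅ X := L.objObjPreimageIso X
  let b : L.obj B ≅ Y := L.objObjPreimageIso Y
  have := hC A B
  have := hL A B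
  have := hF A B
  have h1 : PreservesColimit (pair (F.obj A) (F.obj B)) L' := hL' _ _
  have hc := colimit.isColimit (pair A B)
  have h2 : PreservesColimit (pair A B ⋙ F) L' :=
    preservesColimit_of_iso_diagram L' (pairComp A B F).symm
  have h3 : PreservesColimit (pair A B) (F ⋙ L') := inferInstance
  have h4 : PreservesColimit (pair A B) (L ⋙ G) := preservesColimit_of_natIso _ e.symm
  have h7 : PreservesColimit (pair A B ⋙ L) G :=
    preservesColimit_of_preserves_colimit_cocone (isColimitOfPreserves L hc)
      (isColimitOfPreserves (L ⋙ G) hc)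
  exact preservesColimit_of_iso_diagram G (pairComp A B L ≪≫ mapPairIso a b)

end coproducts

section additive

variable {D D' : Type*} [Category* D] [Category* D'] [Preadditive D] [Preadditive D']
  [HasZeroObject D]

open ZeroObject

/-- a functor between additive categories preserving zero objects and binary coproducts is
additive -/
theorem additive_of_preserves_coproducts [HasBinaryBiproducts D] (G : D ⥤ D')
    (h0 : ∀ X : D, IsZero X → IsZero (G.obj X))
    (h : ∀ X Y : D, PreservesColimit (pair X Y) G) : G.Additive := by
  have : G.PreservesZeroMorphisms := by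
    refine ⟨fun X Y => ?_⟩
    have hz := h0 (0 : D) (isZero_zero D)
    have : (0 : X ⟶ Y) = (0 : X ⟶ 0) ≫ (0 : (0 : D) ⟶ Y) := by simp
    rw [this, G.map_comp, hz.eq_zero_of_tgt (G.map (0 : X ⟶ 0)), zero_comp]
  have : PreservesColimitsOfShape (Discrete WalkingPair) G := by
    refine ⟨fun {K} => ?_⟩
    have := h (K.obj ⟨WalkingPair.left⟩) (K.obj ⟨WalkingPair.right⟩)
    exact preservesColimit_of_iso_diagram G (diagramIsoPair K).symm
  have : PreservesBinaryBiproducts G := preservesBinaryBiproducts_of_preservesBinaryCoproducts G
  exact Functor.additive_of_preservesBinaryBiproducts G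

end additive

section monoidal

variable {C D : Type*} [Category* C] [Category* D] [MonoidalCategory C] [MonoidalCategory D]
  (L : C ⥤ D) [L.Monoidal] [L.EssSurj]

/-- tensoring with an isomorphic object -/
def tensorLeftIso {X Y : D} (e : X ≅ Y) : tensorLeft X ≅ tensorLeft Y :=
  (curriedTensor D).mapIso e

/-- for `Z : D` the functor `Z ⊗ -` is induced by a functor `Z' ⊗ -` on `C` -/
noncomputable def tensorLeftLift (Z : D) :
    L ⋙ tensorLeft Z ≅ tensorLeft (L.objPreimage Z) ⋙ L :=
  Functor.isoWhiskerLeft L (tensorLeftIso (L.objObjPreimageIso Z).symm) ≪≫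
    Functor.Monoidal.commTensorLeft L (L.objPreimage Z)

/-- `Z ⊗ -` preserves coproducts in `D` if it does so in `C` -/
theorem preservesColimit_tensorLeft {J : Type w}
    (hC : ∀ Y : J → C, HasCoproduct Y)
    (hL : ∀ Y : J → C, PreservesColimit (Discrete.functor Y) L)
    (hF : ∀ (Z : C) (Y : J → C), PreservesColimit (Discrete.functor Y) (tensorLeft Z))
    (Z : D) (X : J → D) : PreservesColimit (Discrete.functor X) (tensorLeft Z) :=
  preservesColimit_discrete_of_iso (tensorLeftLift L Z) hC hL (hF _) hL X

/-- `Z ⊗ -` preserves binary coproducts in `D` if it does so in `C` -/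
theorem preservesColimit_pair_tensorLeft
    (hC : ∀ A B : C, HasBinaryCoproduct A B)
    (hL : ∀ A B : C, PreservesColimit (pair A B) L)
    (hF : ∀ Z A B : C, PreservesColimit (pair A B) (tensorLeft Z))
    (Z : D) (X Y : D) : PreservesColimit (pair X Y) (tensorLeft Z) :=
  preservesColimit_pair_of_iso (tensorLeftLift L Z) hC hL (hF _) hL X Y

variable [SymmetricCategory D] [Preadditive D] [HasZeroObject D] [HasBinaryBiproducts D]

/-- The localized tensor product is additive. -/
theorem monoidalPreadditive
    (h0 : ∀ Z X : D, IsZero X → IsZero (Z ⊗ X))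
    (h : ∀ Z X Y : D, PreservesColimit (pair X Y) (tensorLeft Z)) : MonoidalPreadditive D := by
  have ha : ∀ Z : D, (tensorLeft Z).Additive := fun Z =>
    additive_of_preserves_coproducts (tensorLeft Z) (h0 Z) (h Z)
  have h1 : ∀ {X Y Z : D} (f g : Y ⟶ Z), X ◁ (f + g) = X ◁ f + X ◁ g := by
    intro X Y Z f g
    exact (tensorLeft X).map_add
  have h2 : ∀ {X Y Z : D}, X ◁ (0 : Y ⟶ Z) = 0 := by
    intro X Y Z
    exact (tensorLeft X).map_zero Y Z
  have h3 : ∀ {X Y : D} (f : X ⟶ Y) (Z : D), f ▷ Z = (β_ X Z).hom ≫ Z ◁ f ≫ (β_ Y Z).inv := by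
    intro X Y f Z
    rw [← Category.assoc, ← BraidedCategory.braiding_naturality_left, Category.assoc,
      Iso.hom_inv_id, Category.comp_id]
  exact
    { whiskerLeft_zero := h2
      zero_whiskerRight := by intro X Y Z; rw [h3, h2]; simp
      whiskerLeft_add := h1
      add_whiskerRight := by intro X Y Z f g; rw [h3, h3 f, h3 g, h1]; simp }

end monoidal

end Vale.Agent.P251.H.MonLoc
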