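import Vale.Agent.P251.H.Cof.Cone
import Vale.Agent.P251.H.Cof.Calc
import Vale.Agent.P251.H.MonLoc.Basic
import Mathlib.CategoryTheory.Monoidal.CoherenceLemmas

/-!
# P251, part H: symmetric monoidal cofibration categories

`TensorCofCat C`: a cofibration category with cylinders `C` (see `H/Cof/Defs.lean`) which is
symmetric monoidal, such that the functors `Z ⊗ -` preserve weak equivalences, cofibrations, zero
objects and pushouts along cofibrations, and such that the cylinder is `X ⊗ I`.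
-/

open CategoryTheory Limits MonoidalCategory

universe w v u

namespace Vale.Agent.P251.H

open CofCat ZeroObject

/-- Compatibility of a symmetric monoidal structure with the structure of a cofibration category
with cylinders. -/
class TensorCofCat (C : Type u) [Category.{v} C] [HasZeroObject C] [HasZeroMorphisms C]
    [HasBinaryCoproducts C] [CofCat C] [MonoidalCategory C] [SymmetricCategory C] where
  W_whiskerLeft (Z : C) {X Y : C} (f : X ⟶ Y) : W f → W (Z ◁ f)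
  Cof_whiskerLeft (Z : C) {X Y : C} (f : X ⟶ Y) : Cof f → Cof (Z ◁ f)
  isZero_tensor (Z X : C) : IsZero X → IsZero (Z ⊗ X)
  isPushout_whiskerLeft (Z : C) {A B X P : C} {i : A ⟶ B} {f : A ⟶ X} {j : B ⟶ P} {k : X ⟶ P} :
    IsPushout i f j k → Cof i → IsPushout (Z ◁ i) (Z ◁ f) (Z ◁ j) (Z ◁ k)
  /-- the interval -/
  I : C
  /-- the bottom of the interval -/
  e₀ : 𝟙_ C ⟶ I
  /-- the top of the interval -/
  e₁ : 𝟙_ C ⟶ I
  /-- the projection of the interval -/
  p : I ⟶ 𝟙_ C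
  /-- the cylinder is the tensor product with the interval -/
  cyl (X : C) : X ⊗ I ≅ CofCat.Cyl.obj X
  cyl_natural {X Y : C} (f : X ⟶ Y) : f ▷ I ≫ (cyl Y).hom = (cyl X).hom ≫ CofCat.Cyl.map f
  cyl_e₀ (X : C) : (ρ_ X).inv ≫ X ◁ e₀ ≫ (cyl X).hom = CofCat.i₀.app X
  cyl_e₁ (X : C) : (ρ_ X).inv ≫ X ◁ e₁ ≫ (cyl X).hom = CofCat.i₁.app X
  cyl_p (X : C) : (cyl X).hom ≫ CofCat.π.app X = X ◁ p ≫ (ρ_ X).hom

namespace TensorCofCat

variable {C : Type u} [Category.{v} C] [HasZeroObject C] [HasZeroMorphisms C]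
  [HasBinaryCoproducts C] [CofCat C] [MonoidalCategory C] [SymmetricCategory C] [TensorCofCat C]

omit [HasZeroObject C] [HasZeroMorphisms C] [HasBinaryCoproducts C] [CofCat C]
  [TensorCofCat C] in
lemma whiskerRight_eq {X Y : C} (f : X ⟶ Y) (Z : C) :
    f ▷ Z = (β_ X Z).hom ≫ Z ◁ f ≫ (β_ Y Z).inv := by
  rw [← Category.assoc, ← BraidedCategory.braiding_naturality_left, Category.assoc,
    Iso.hom_inv_id, Category.comp_id]

lemma W_whiskerRight {X Y : C} (f : X ⟶ Y) (hf : W f) (Z : C) : W (f ▷ Z) := by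
  rw [whiskerRight_eq]
  exact W_comp _ _ (W_of_isIso _) (W_comp _ _ (W_whiskerLeft Z f hf) (W_of_isIso _))

/-- the weak equivalences are compatible with the tensor product -/
instance isMonoidal : (CofCat.W (C := C)).IsMonoidal where
  id_mem X := W_id X
  comp_mem f g hf hg := W_comp f g hf hg
  whiskerLeft X _ _ g hg := W_whiskerLeft X g hg
  whiskerRight f hf Y := W_whiskerRight f hf Y

lemma isZero_tensor' (X Z : C) (hX : IsZero X) : IsZero (X ⊗ Z) :=
  (isZero_tensor Z X hX).of_iso (β_ X Z)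

/-- `Z ⊗ -` preserves zero morphisms -/
instance (Z : C) : (tensorLeft Z).PreservesZeroMorphisms where
  map_zero X Y := by
    have hz := isZero_tensor Z (0 : C) (isZero_zero C)
    have : (0 : X ⟶ Y) = (0 : X ⟶ 0) ≫ (0 : (0 : C) ⟶ Y) := by simp
    rw [this, Functor.map_comp]
    change Z ◁ (0 : X ⟶ 0) ≫ _ = 0
    rw [hz.eq_zero_of_tgt (Z ◁ (0 : X ⟶ 0)), zero_comp]

@[simp] lemma whiskerLeft_zero (Z : C) {X Y : C} : Z ◁ (0 : X ⟶ Y) = 0 :=
  (tensorLeft Z).map_zero X Y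

/-- `Z ⊗ -` preserves binary coproducts -/
instance preservesColimit_pair (Z A B : C) : PreservesColimit (pair A B) (tensorLeft Z) := by
  have h : IsPushout (0 : (0 : C) ⟶ A) (0 : (0 : C) ⟶ B) (coprod.inl : A ⟶ A ⨿ B) coprod.inr :=
    IsPushout.of_hasBinaryCoproduct
  have h' := isPushout_whiskerLeft Z h (Cof_zero (isZero_zero C) _)
  refine preservesColimit_of_preserves_colimit_cocone (coprodIsCoprod A B) ?_
  refine (isColimitMapCoconeBinaryCofanEquiv (tensorLeft Z) _ _).symm ?_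
  exact isCoproductOfIsInitialIsPushout _ _ _ _ (isZero_tensor Z _ (isZero_zero C)).isInitial
    h'.isColimit

/-- the bottom of the interval is a cofibration -/
lemma cof_e₀ : Cof (e₀ : 𝟙_ C ⟶ I) := by
  have h : (e₀ : 𝟙_ C ⟶ I) = ι₀ (𝟙_ C) ≫ (cyl (𝟙_ C)).inv ≫ (λ_ I).hom := by
    have := cyl_e₀ (𝟙_ C)
    change _ = ι₀ (𝟙_ C) at this
    rw [← this]
    simp [unitors_equal]
  rw [h]
  exact Cof_comp _ _ (cof_ι₀ _) (Cof_of_isIso _)

/-- the top of the interval is a cofibration -/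
lemma cof_e₁ : Cof (e₁ : 𝟙_ C ⟶ I) := by
  have h : (e₁ : 𝟙_ C ⟶ I) = ι₁ (𝟙_ C) ≫ (cyl (𝟙_ C)).inv ≫ (λ_ I).hom := by
    have := cyl_e₁ (𝟙_ C)
    change _ = ι₁ (𝟙_ C) at this
    rw [← this]
    simp [unitors_equal]
  rw [h]
  exact Cof_comp _ _ (cof_ι₁ _) (Cof_of_isIso _)

omit [HasBinaryCoproducts C] [CofCat C] [MonoidalCategory C] [SymmetricCategory C]
  [TensorCofCat C] in
/-- replace the zero object in a cofibre square -/
lemma isPushout_zero {A B P Z : C} {i : A ⟶ B} {f : A ⟶ Z} {j : B ⟶ P} {k : Z ⟶ P}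
    (h : IsPushout i f j k) (hZ : IsZero Z) :
    IsPushout i (0 : A ⟶ (0 : C)) j (0 : (0 : C) ⟶ P) :=
  h.of_iso (Iso.refl _) (Iso.refl _) hZ.isoZero (Iso.refl _) (by simp)
    ((isZero_zero C).eq_of_tgt _ _) (by simp) (hZ.eq_of_src _ _)

/-- `Z ⊗ -` preserves cofibre squares of cofibrations -/
lemma isPushout_zero_whiskerLeft (Z : C) {A B P : C} {i : A ⟶ B} {j : B ⟶ P}
    (h : IsPushout i (0 : A ⟶ (0 : C)) j (0 : (0 : C) ⟶ P)) (hi : Cof i) :
    IsPushout (Z ◁ i) (0 : Z ⊗ A ⟶ (0 : C)) (Z ◁ j) (0 : (0 : C) ⟶ Z ⊗ P) :=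
  isPushout_zero (isPushout_whiskerLeft Z h hi) (isZero_tensor Z _ (isZero_zero C))

end TensorCofCat

open TensorCofCat

/-- Chosen models of the cone and the suspension of the unit:
`CI = I / (top end)` and `S = CI / (bottom end)`. -/
structure ConeModel (C : Type u) [Category.{v} C] [HasZeroObject C] [HasZeroMorphisms C]
    [HasBinaryCoproducts C] [CofCat C] [MonoidalCategory C] [SymmetricCategory C]
    [TensorCofCat C] where
  /-- the cone of the unit -/
  CI : C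
  /-- the suspension of the unit -/
  S : C
  /-- the base of the cone -/
  c : 𝟙_ C ⟶ CI
  /-- the projection of the interval -/
  q : TensorCofCat.I ⟶ CI
  /-- the projection of the cone -/
  s : CI ⟶ S
  e₀_q : e₀ ≫ q = c
  isPushout_q : IsPushout (e₁ : 𝟙_ C ⟶ I) (0 : 𝟙_ C ⟶ (0 : C)) q (0 : (0 : C) ⟶ CI)
  isPushout_s : IsPushout c (0 : 𝟙_ C ⟶ (0 : C)) s (0 : (0 : C) ⟶ S)

namespace ConeModel

variable {C : Type u} [Category.{v} C] [HasZeroObject C] [HasZeroMorphisms C]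
  [HasBinaryCoproducts C] [CofCat C] [MonoidalCategory C] [SymmetricCategory C] [TensorCofCat C]

/-- the tautological model -/
noncomputable def taut : ConeModel C where
  CI := Cone.obj (𝟙_ C)
  S := Susp.obj (𝟙_ C)
  c := cin _
  q := (λ_ I).inv ≫ (cyl _).hom ≫ cylCone.app _
  s := cpr _
  e₀_q := by
    have := cyl_e₀ (𝟙_ C)
    change _ = ι₀ (𝟙_ C) at this
    rw [← ι₀_cylCone, ← this]
    simp [unitors_equal]
  isPushout_q := by
    refine (isPushout_cylCone (𝟙_ C)).of_iso (Iso.refl _) ((cyl _).symm ≪≫ λ_ I) (Iso.refl _)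
      (Iso.refl _) ?_ ?_ ?_ ?_
    · have := cyl_e₁ (𝟙_ C)
      change _ = ι₁ (𝟙_ C) at this
      rw [← this]
      simp [unitors_equal]
    · simp
    · simp
    · simp
  isPushout_s := isPushout_cpr _

variable (m : ConeModel C)

/-- the inclusion of the base `A ⟶ A ⊗ CI` -/
def coneIn (A : C) : A ⟶ A ⊗ m.CI := (ρ_ A).inv ≫ A ◁ m.c

@[reassoc]
lemma coneIn_natural {A B : C} (f : A ⟶ B) : m.coneIn A ≫ f ▷ m.CI = f ≫ m.coneIn B := by
  simp only [coneIn, Category.assoc]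
  rw [whisker_exchange, ← rightUnitor_inv_naturality_assoc]

@[reassoc]
lemma whiskerLeft_coneIn (Z A : C) :
    Z ◁ m.coneIn A = m.coneIn (Z ⊗ A) ≫ (α_ Z A m.CI).hom := by
  simp [coneIn]

lemma isPushout_cyl (A : C) :
    IsPushout (ι₁ A) (0 : A ⟶ (0 : C)) ((cyl A).inv ≫ A ◁ m.q) (0 : (0 : C) ⟶ A ⊗ m.CI) := by
  refine (isPushout_zero_whiskerLeft A m.isPushout_q cof_e₁).of_iso (ρ_ A) (cyl A) (Iso.refl _)
      (Iso.refl _) ?_ ?_ ?_ ?_
  · have := cyl_e₁ A
    change _ = ι₁ A at this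
    rw [← this]
    simp
  · simp
  · simp
  · simp

/-- the cone functor is `A ⊗ CI` -/
noncomputable def coneIso (A : C) : A ⊗ m.CI ≅ Cone.obj A :=
  (m.isPushout_cyl A).isoIsPushout _ _ (isPushout_cylCone A)

@[reassoc]
lemma q_coneIso (A : C) : A ◁ m.q ≫ (m.coneIso A).hom = (cyl A).hom ≫ cylCone.app A := by
  have := (m.isPushout_cyl A).inl_isoIsPushout_hom _ _ (isPushout_cylCone A)
  rw [Category.assoc, Iso.inv_comp_eq] at this
  exact this

@[reassoc]
lemma coneIn_coneIso (A : C) : m.coneIn A ≫ (m.coneIso A).hom = cin A := by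
  have := cyl_e₀ A
  change _ = ι₀ A at this
  rw [← ι₀_cylCone, ← this, coneIn, ← m.e₀_q]
  simp only [MonoidalCategory.whiskerLeft_comp, Category.assoc]
  rw [q_coneIso]

lemma epi_aux {A T : C} {f g : A ⊗ m.CI ⟶ T} (h : A ◁ m.q ≫ f = A ◁ m.q ≫ g) : f = g :=
  (m.isPushout_cyl A).hom_ext (by simp [h]) ((isZero_zero C).eq_of_src _ _)

@[reassoc]
lemma coneIso_natural {A B : C} (f : A ⟶ B) :
    f ▷ m.CI ≫ (m.coneIso B).hom = (m.coneIso A).hom ≫ Cone.map f := by
  apply m.epi_aux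
  rw [whisker_exchange_assoc, q_coneIso, q_coneIso_assoc, ← Category.assoc, cyl_natural]
  simp

lemma isPushout_coneIn (A : C) :
    IsPushout (m.coneIn A) (0 : A ⟶ (0 : C)) (A ◁ m.s) (0 : (0 : C) ⟶ A ⊗ m.S) := by
  have hc : Cof m.c := by
    have h : m.c = cin (𝟙_ C) ≫ (m.coneIso (𝟙_ C)).inv ≫ (λ_ _).hom := by
      rw [← m.coneIn_coneIso]
      simp [coneIn, unitors_equal]
    rw [h]
    exact Cof_comp _ _ (cof_cin _) (Cof_of_isIso _)
  refine (isPushout_zero_whiskerLeft A m.isPushout_s hc).of_iso (ρ_ A) (Iso.refl _) (Iso.refl _)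
      (Iso.refl _) ?_ ?_ ?_ ?_
  · simp [coneIn]
  · simp
  · simp
  · simp

/-- the suspension functor is `A ⊗ S` -/
noncomputable def suspIso (A : C) : A ⊗ m.S ≅ Susp.obj A where
  hom := (m.isPushout_coneIn A).desc ((m.coneIso A).hom ≫ cpr A) 0
    (by rw [coneIn_coneIso_assoc]; simp)
  inv := suspDesc ((m.coneIso A).inv ≫ A ◁ m.s) (by
    rw [← coneIn_coneIso m, Category.assoc, Iso.hom_inv_id_assoc, (m.isPushout_coneIn A).w]
    simp)
  hom_inv_id := by
    apply (m.isPushout_coneIn A).hom_ext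
    · rw [(m.isPushout_coneIn A).inl_desc_assoc]
      simp
    · exact (isZero_zero C).eq_of_src _ _
  inv_hom_id := by
    apply susp_hom_ext
    rw [cpr_suspDesc_assoc, Category.assoc, (m.isPushout_coneIn A).inl_desc]
    simp

@[reassoc]
lemma s_suspIso (A : C) : A ◁ m.s ≫ (m.suspIso A).hom = (m.coneIso A).hom ≫ cpr A :=
  (m.isPushout_coneIn A).inl_desc _ _ _

@[reassoc]
lemma suspIso_natural {A B : C} (f : A ⟶ B) :
    f ▷ m.S ≫ (m.suspIso B).hom = (m.suspIso A).hom ≫ Susp.map f := by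
  apply (m.isPushout_coneIn A).hom_ext
  · rw [whisker_exchange_assoc, s_suspIso, s_suspIso_assoc, coneIso_natural_assoc,
      cpr_naturality]
  · exact (isZero_zero C).eq_of_src _ _

/-- the suspension functor is `- ⊗ S` -/
noncomputable def suspNatIso : tensorRight m.S ≅ (Susp : C ⥤ C) :=
  NatIso.ofComponents m.suspIso (fun f => m.suspIso_natural f)

end ConeModel

end Vale.Agent.P251.H
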